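import Vale.Agent.P273.MathlibUsed

/-! Changes of the instance of decidable equality. -/

namespace Vale.Agent.P273.D14

theorem upd_eq {α : Type*} {β : α → Type*} (i j : DecidableEq α) (f : ∀ a, β a) (a : α)
    (b : β a) : @Function.update α β i f a b = @Function.update α β j f a b := by
  rw [Subsingleton.elim i j]

theorem swap_eq {α : Type*} (i j : DecidableEq α) (a b : α) :
    @Equiv.swap α i a b = @Equiv.swap α j a b := by
  rw [Subsingleton.elim i j]

end Vale.Agent.P273.D14
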