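import Vale.Agent.P273.D14.H593.Num
import Vale.Agent.P273.D14.H593.NumG

/-! The final statement, from the functional of the P side. -/

noncomputable section

namespace Vale.Agent.P273.D14.H741

open Vale.Agent.P273.Q Vale.Agent.P273.Num

/-- The value on `x`. -/
abbrev onX (s : Fn (Fin 7 × Bool)) : ℚ :=
  ∑ q ∈ Finset.range 7, ∑ p ∈ Finset.range (q + 1), (disc p (q - p) (6 - q) : ℚ) *
    ∑ σ, sg σ * s (Option (Fin 7)) (Fin 3 ⊕ Fin 6) und (th p q σ)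

theorem final (hP : ∃ s : Fn (Fin 7 × Bool), Pix 2 9 s ∧ onX s ≠ 0) :
    (∀ p q σ, p ≤ q → q ≤ 6 → Valid und (th p q σ) 2 9) ∧
    (∀ (V E : Type) (a : V → ℕ × Multiset ℕ) (f : (E × Bool) ⊕ (Fin 7 × Bool) → V × ℕ),
      Valid a f 2 8 → (∀ v, 0 ∉ (a v).2) →
      ∑ q ∈ Finset.range 7, ∑ p ∈ Finset.range (q + 1), (disc p (q - p) (6 - q) : ℚ) *
        ∑ σ, sg σ * pair und (th p q σ) a f = 0) ∧
    ∃ s : Fn (Fin 7 × Bool), Pix 2 9 s ∧
      ∑ q ∈ Finset.range 7, ∑ p ∈ Finset.range (q + 1), (disc p (q - p) (6 - q) : ℚ) *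
        ∑ σ, sg σ * s (Option (Fin 7)) (Fin 3 ⊕ Fin 6) und (th p q σ) ≠ 0 :=
  ⟨fun p q σ hp hq => th_valid p q hp hq σ, fun _ _ a f hv hk => num_zero a f hv hk, hP⟩

end Vale.Agent.P273.D14.H741
end
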