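import Vale.Agent.P273.D14.H741.Five
import Vale.Agent.P273.D14.H741.Final

/-! The final statement with five theta graphs. -/

noncomputable section

namespace Vale.Agent.P273.Z

open Sum Vale.Agent.P273.Q Vale.Agent.P273.Num
open scoped Classical Nat

variable {V' E' : Type}

theorem isoInv_pair (a' : V' → ℕ × Multiset ℕ) (f' : (E' × Bool) ⊕ (Fin 7 × Bool) → V' × ℕ) :
    IsoInv (fun f => pair und f a' f') := by
  have h : ∀ f : ((Fin 3 ⊕ Fin 6) × Bool) ⊕ (Fin 7 × Bool) → Option (Fin 7) × ℕ,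
      pair und f a' f' = pairC ∅ und f a' f' := by
    intro f
    unfold pair pairC
    refine Finset.sum_congr rfl fun k _ => ?_
    refine congrArg (· / (k ! : ℚ)) (finsum_congr fun S => ?_)
    have hS : TC ∅ S := ⟨fun e he => absurd he (Set.notMem_empty e),
      fun e he => absurd he (Set.notMem_empty e)⟩
    rw [finsum_eq_if, if_pos hS]
  intro u ρ f f₁ hf
  simp only [h]
  exact pairC_iso u ρ ∅ ∅ (fun e => by simp) f f₁ hf a' f'

theorem isoInv_fn {s : Q.Fn (Fin 7 × Bool)} {g d : ℕ} (hs : Q.Tr g d s) :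
    IsoInv (fun f => s (Option (Fin 7)) (Fin 3 ⊕ Fin 6) und f) := by
  intro u ρ f f₁ hf
  exact hs.2.1 _ _ _ _ und f f₁ u (Prod.map ρ id) u.bijective
    (ρ.bijective.prodMap Function.bijective_id) (fun _ => rfl) hf

theorem onX_eq (F : (((Fin 3 ⊕ Fin 6) × Bool) ⊕ (Fin 7 × Bool) → Option (Fin 7)) → ℚ)
    (G : (((Fin 3 ⊕ Fin 6) × Bool) ⊕ (Fin 7 × Bool) → Option (Fin 7) × ℕ) → ℚ)
    (h : ∀ p q σ, F (Z.th p q σ) = G (Num.th p q σ)) (hG : IsoInv G) :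
    ∑ q ∈ Finset.range 7, ∑ p ∈ Finset.range (q + 1), (disc p (q - p) (6 - q) : ℚ) *
      ∑ σ, sg σ * G (Num.th p q σ) = -6 * onX F := by
  rw [five hG]
  refine congrArg (-6 * ·) ?_
  unfold onX TT
  simp only [h]
  rw [Finset.mul_sum, ← Finset.sum_sub_distrib, ← Finset.sum_add_distrib,
    ← Finset.sum_add_distrib, ← Finset.sum_sub_distrib]
  refine Finset.sum_congr rfl fun σ _ => ?_
  unfold sg
  ring

theorem pix_iff {g d : ℕ} {N : Type} (s : Q.Fn N) : Z.Pix g d s ↔ Q.Pix g d s := Iff.rfl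

theorem valid_iff {V E L : Type} (a : V → ℕ × Multiset ℕ) (f : (E × Bool) ⊕ L → V × ℕ)
    (g d : ℕ) : Z.Valid a f g d ↔ Q.Valid a f g d := Iff.rfl

theorem final5 (hP : ∃ s : Q.Fn (Fin 7 × Bool), Q.Pix 2 9 s ∧ D14.H741.onX s ≠ 0) :
    (∀ p q σ, p ≤ q → q ≤ 6 → Z.Valid (fun _ => (0, 0)) (fun y => (Z.th p q σ y, 0)) 2 9) ∧
    (∀ (V E : Type) (a : V → ℕ × Multiset ℕ) (f : (E × Bool) ⊕ (Fin 7 × Bool) → V × ℕ),
      Z.Valid a f 2 8 → (∀ v, 0 ∉ (a v).2) → onX (fun h => pairZ h a f) = 0) ∧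
    ∃ s : Z.Fn (Fin 7 × Bool), Z.Pix 2 9 s ∧
      onX (fun h => s _ _ (fun _ => (0, 0)) fun y => (h y, 0)) ≠ 0 := by
  obtain ⟨h1, h2, s, h3, h4⟩ := D14.H741.final hP
  refine ⟨fun p q σ hp hq => ?_, fun V E a f hv hk => ?_, s, (pix_iff s).2 h3, fun h => h4 ?_⟩
  · rw [th_eq, valid_iff]
    exact h1 p q σ hp hq
  · have h5 := h2 V E a f ((valid_iff _ _ _ _).1 hv) hk
    have : Finite E := hv.1.2.1
    rw [onX_eq (fun h => pairZ h a f) (fun g => pair und g a f) (fun p q σ => by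
      rw [pair_eq (th_snd p q σ), th_fst]) (isoInv_pair a f)] at h5
    linarith
  · rw [onX_eq (fun h => s (Option (Fin 7)) (Fin 3 ⊕ Fin 6) (fun _ => (0, 0)) fun y => (h y, 0))
      (fun g => s (Option (Fin 7)) (Fin 3 ⊕ Fin 6) und g)
      (fun p q σ => by rw [th_eq]; rfl) (isoInv_fn h3.1), h, mul_zero]

end Vale.Agent.P273.Z
end
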