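import Vale.Agent.P273.D14.H741.PairZ
import Vale.Agent.P273.D14.H593.NumR

/-! The element with five terms. -/

noncomputable section

namespace Vale.Agent.P273.Z

open Sum Vale.Agent.P273.Q Vale.Agent.P273.Num
open scoped Classical Nat

theorem hd_eq (p q : ℕ) (e : Fin 3 ⊕ Fin 6) : Z.hd p q e = Num.hd p q e := by
  rcases e with e | t
  · fin_cases e <;> rfl
  · rfl

theorem th_eq (p q : ℕ) (σ : Bool → Equiv.Perm (Fin 7)) :
    (fun y => (Z.th p q σ y, 0)) = Num.th p q σ := by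
  funext y
  rcases y with ⟨e | t, s⟩ | ⟨i, b⟩
  · cases s
    · exact Prod.ext (congrArg some (hd_eq p q (inl e))) rfl
    · rfl
  · cases s
    · exact Prod.ext (congrArg some (hd_eq p q (inr t))) rfl
    · rfl
  · rfl

theorem th_fst (p q : ℕ) (σ : Bool → Equiv.Perm (Fin 7)) :
    (fun y => (Num.th p q σ y).1) = Z.th p q σ := by
  rw [← th_eq]

/-- Exchange of the first two chains (vertices). -/
def sw6 (p q : ℕ) (t : Fin 6) : Fin 6 :=
  if t.1 < p then Fin.ofNat 6 (t.1 + (q - p)) else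
    if t.1 < q then Fin.ofNat 6 (t.1 - p) else t

def sw7 (p q : ℕ) (t : Fin 7) : Fin 7 :=
  if t.1 < p then Fin.ofNat 7 (t.1 + (q - p)) else
    if t.1 < q then Fin.ofNat 7 (t.1 - p) else t

def sw3 : Fin 3 → Fin 3 := ![1, 0, 2]

def swE (p q : ℕ) : Fin 3 ⊕ Fin 6 → Fin 3 ⊕ Fin 6 := Sum.map sw3 (sw6 p q)

theorem sw6_inj : ∀ p q : Fin 7, p ≤ q → ∀ t u, sw6 p q t = sw6 p q u → t = u := by
  decide

theorem sw7_inj : ∀ p q : Fin 7, p ≤ q → ∀ t u, sw7 p q t = sw7 p q u → t = u := by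
  decide

theorem sw3_inj : ∀ t u, sw3 t = sw3 u → t = u := by decide

theorem sw_hv : ∀ p q : Fin 7, p ≤ q → ∀ (e : Fin 3 ⊕ Fin 6) (s : Bool),
    hv (q.1 - p.1) q.1 (swE p q e, s) = (hv p q (e, s)).map (sw7 p q) := by
  decide

/-- Change of the labels of the vertices. -/
theorem sum_mul (π : Equiv.Perm (Fin 7)) (G : (Bool → Equiv.Perm (Fin 7)) → ℚ) :
    ∑ σ, sg σ * G (fun b => π * σ b) = ∑ σ, sg σ * G σ := by
  let μ : (Bool → Equiv.Perm (Fin 7)) ≃ (Bool → Equiv.Perm (Fin 7)) :=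
    Equiv.piCongrRight fun _ => Equiv.mulLeft π
  rw [← Equiv.sum_comp μ (fun σ => sg σ * G σ)]
  refine Finset.sum_congr rfl fun σ _ => ?_
  have h : sg (μ σ) = sg σ := by
    unfold sg
    change (((Equiv.Perm.sign (π * σ true) : ℤˣ) * (Equiv.Perm.sign (π * σ false) : ℤˣ) : ℤ) : ℚ) = _
    rw [Equiv.Perm.sign_mul, Equiv.Perm.sign_mul]
    have : ((Equiv.Perm.sign π : ℤˣ) : ℤ) * (Equiv.Perm.sign π : ℤˣ) = 1 := by
      rw [← Units.val_mul, Int.units_mul_self]; rfl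
    refine congrArg (Int.cast : ℤ → ℚ) ?_
    push_cast
    calc _ = (((Equiv.Perm.sign π : ℤˣ) : ℤ) * (Equiv.Perm.sign π : ℤˣ)) *
        (((Equiv.Perm.sign (σ true) : ℤˣ) : ℤ) * ((Equiv.Perm.sign (σ false) : ℤˣ) : ℤ)) := by ring
      _ = _ := by rw [this, one_mul]
  change _ = sg (μ σ) * G (μ σ)
  rw [h]
  rfl

/-- Invariance under isomorphisms. -/
def IsoInv (F : (((Fin 3 ⊕ Fin 6) × Bool) ⊕ (Fin 7 × Bool) → Option (Fin 7) × ℕ) → ℚ) : Prop :=
  ∀ (u : Equiv.Perm (Option (Fin 7))) (ρ : Equiv.Perm (Fin 3 ⊕ Fin 6))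
    (f f₁ : ((Fin 3 ⊕ Fin 6) × Bool) ⊕ (Fin 7 × Bool) → Option (Fin 7) × ℕ),
    (∀ y, f₁ (y.map (Prod.map ρ id) id) = (f y).map u id) → F f = F f₁

variable {F : (((Fin 3 ⊕ Fin 6) × Bool) ⊕ (Fin 7 × Bool) → Option (Fin 7) × ℕ) → ℚ}

/-- The antisymmetrization. -/
def TT (F : (((Fin 3 ⊕ Fin 6) × Bool) ⊕ (Fin 7 × Bool) → Option (Fin 7) × ℕ) → ℚ) (p q : ℕ) : ℚ :=
  ∑ σ, sg σ * F (Num.th p q σ)

theorem TT_swap (hF : IsoInv F) (p q : ℕ) (hp : p ≤ q) (hq : q ≤ 6) :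
    TT F p q = TT F (q - p) q := by
  let P : Fin 7 := ⟨p, by omega⟩
  let Q' : Fin 7 := ⟨q, by omega⟩
  have hPQ : P ≤ Q' := hp
  let π : Equiv.Perm (Fin 7) := Equiv.ofBijective (sw7 p q)
    (Finite.injective_iff_bijective.1 fun t u h => sw7_inj P Q' hPQ t u h)
  let ρ : Equiv.Perm (Fin 3 ⊕ Fin 6) := Equiv.sumCongr
    (Equiv.ofBijective sw3 (Finite.injective_iff_bijective.1 fun t u h => sw3_inj t u h))
    (Equiv.ofBijective (sw6 p q)
      (Finite.injective_iff_bijective.1 fun t u h => sw6_inj P Q' hPQ t u h))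
  unfold TT
  rw [← sum_mul π fun σ => F (Num.th (q - p) q σ)]
  refine Finset.sum_congr rfl fun σ _ => ?_
  refine congrArg (sg σ * ·) ?_
  refine hF (Equiv.optionCongr π) ρ _ _ fun y => ?_
  rcases y with ⟨e, s⟩ | ⟨i, b⟩
  · rw [th_inl]
    simp only [Sum.map_inl, Prod.map_apply, id_eq, th_inl]
    have := sw_hv P Q' hPQ e s
    have h2 : ρ e = swE p q e := by
      rcases e with e | e <;> rfl
    rw [h2]
    exact Prod.ext this rfl
  · rfl

theorem TT_rot (hF : IsoInv F) (p q : ℕ) (hp : p ≤ q) (hq : q ≤ 6) :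
    TT F p q = TT F (6 - q) (6 - q + p) := by
  unfold TT
  rw [← sum_mul (rot7 q) fun σ => F (Num.th (6 - q) (6 - q + p) σ)]
  refine Finset.sum_congr rfl fun σ _ => ?_
  refine congrArg (sg σ * ·) ?_
  refine hF (Equiv.optionCongr (rot7 q)) (rotE q) _ _ fun y => ?_
  rcases y with ⟨e, s⟩ | ⟨i, b⟩
  · rw [th_inl]
    simp only [Sum.map_inl, Prod.map_apply, id_eq, th_inl]
    have := rot_hv ⟨p, by omega⟩ ⟨q, by omega⟩ hp e s
    exact Prod.ext this rfl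
  · rfl

theorem five (hF : IsoInv F) :
    ∑ q ∈ Finset.range 7, ∑ p ∈ Finset.range (q + 1), (disc p (q - p) (6 - q) : ℚ) *
      ∑ σ, sg σ * F (Num.th p q σ) =
    -6 * (TT F 2 4 - 2 * TT F 1 3 + TT F 0 3 + TT F 1 2 - TT F 0 2) := by
  change ∑ q ∈ Finset.range 7, ∑ p ∈ Finset.range (q + 1), (disc p (q - p) (6 - q) : ℚ) *
    TT F p q = _
  have a1 : TT F 1 3 = TT F 2 3 := TT_swap hF 1 3 (by norm_num) (by norm_num)
  have a2 : TT F 1 3 = TT F 3 4 := TT_rot hF 1 3 (by norm_num) (by norm_num)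
  have a3 : TT F 2 3 = TT F 3 5 := TT_rot hF 2 3 (by norm_num) (by norm_num)
  have a4 : TT F 3 4 = TT F 2 5 := TT_rot hF 3 4 (by norm_num) (by norm_num)
  have a5 : TT F 3 5 = TT F 1 4 := TT_rot hF 3 5 (by norm_num) (by norm_num)
  have b1 : TT F 1 2 = TT F 4 5 := TT_rot hF 1 2 (by norm_num) (by norm_num)
  have b2 : TT F 4 5 = TT F 1 5 := TT_rot hF 4 5 (by norm_num) (by norm_num)
  have c1 : TT F 0 3 = TT F 3 3 := TT_rot hF 0 3 (by norm_num) (by norm_num)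
  have c2 : TT F 3 3 = TT F 3 6 := TT_rot hF 3 3 (by norm_num) (by norm_num)
  have d1 : TT F 0 2 = TT F 2 2 := TT_swap hF 0 2 (by norm_num) (by norm_num)
  have d2 : TT F 0 2 = TT F 4 4 := TT_rot hF 0 2 (by norm_num) (by norm_num)
  have d3 : TT F 4 4 = TT F 2 6 := TT_rot hF 4 4 (by norm_num) (by norm_num)
  have d4 : TT F 2 2 = TT F 4 6 := TT_rot hF 2 2 (by norm_num) (by norm_num)
  have d5 : TT F 4 6 = TT F 0 4 := TT_rot hF 4 6 (by norm_num) (by norm_num)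
  simp only [Finset.sum_range_succ, Finset.sum_range_zero, disc]
  norm_num
  linarith

end Vale.Agent.P273.Z
end
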