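import Vale.Agent.P273.D14.H741.WkMu
import Vale.Agent.P273.D14.H593.NumExt
import Vale.Agent.P273.D14.H789.Cyc

/-! The intersection pairing with an undecorated graph with rational vertices. -/

noncomputable section

namespace Vale.Agent.P273.Z

open Sum Vale.Agent.P273.Q Vale.Agent.P273.Num
open scoped Classical Nat

variable {V E V' E' L : Type} {k : ℕ} {f : (E × Bool) ⊕ L → V × ℕ}
  {a' : V' → ℕ × Multiset ℕ} {f' : (E' × Bool) ⊕ L → V' × ℕ}

theorem sum_fib_zero (c : Fin k → V) (v : V) :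
    ∑ᶠ (w) (_ : c w = v), (0 : Fin k → ℕ) w = 0 := by
  simp only [Pi.zero_apply, finsum_zero]

/-- Forget the genus. -/
def toDeg [Finite V] [Finite E'] (S : Dgn k und f a' f') : Deg k (fun y => (f y).1) a' f' where
  h₁ := S.h
  h₂ := S.h'
  p := S.p'
  M := S.M
  c := S.c
  c' := S.c'
  M_inj := S.M_inj
  h_M := S.h_M
  c_h := S.c_h
  c'_h := S.c'_h
  c'_h₂ := S.c'_h'
  c'_p := S.c'_p'
  contr := ⟨S.contr.1, fun v => ⟨(S.contr.2 v).1, (S.contr.2 v).2.1, by
    have h := (S.contr.2 v).2.2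
    rw [S.g_zero, sum_fib_zero, zero_add] at h
    exact h⟩⟩
  contr' := ⟨S.contr'.1, fun v => ⟨(S.contr'.2 v).1, (S.contr'.2 v).2.1, by
    have h := (S.contr'.2 v).2.2
    rw [S.g_zero, sum_fib_zero, zero_add] at h
    exact h⟩⟩

/-- All vertices are rational. -/
def ofDeg (S : Deg k (fun y => (f y).1) a' f') : Dgn k und f a' f' where
  g := 0
  h := S.h₁
  h' := S.h₂
  p := fun t => (Kap_und_elim t).elim
  p' := S.p
  M := S.M
  J := fun _ => none
  c := S.c
  c' := S.c'
  M_inj := S.M_inj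
  J_inj := fun t => (Kap_und_elim t).elim
  h_M := S.h_M
  p_J := fun t => (Kap_und_elim t).elim
  c_h := S.c_h
  c_p := fun t => (Kap_und_elim t).elim
  c'_h := S.c'_h
  c'_h' := S.c'_h₂
  c'_p' := S.c'_p
  contr := ⟨S.contr.1, fun v => ⟨(S.contr.2 v).1, (S.contr.2 v).2.1, by
    rw [sum_fib_zero, zero_add]
    exact (S.contr.2 v).2.2⟩⟩
  contr' := ⟨S.contr'.1, fun v => ⟨(S.contr'.2 v).1, (S.contr'.2 v).2.1, by
    rw [sum_fib_zero, zero_add]
    exact (S.contr'.2 v).2.2⟩⟩

theorem of_to [Finite V] [Finite E'] (S : Dgn k und f a' f') : ofDeg (toDeg S) = S := by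
  refine Dgn.ext' S.g_zero.symm rfl rfl ?_ rfl rfl ?_ rfl rfl
  · funext t
    exact (Kap_und_elim t).elim
  · funext t
    exact (Kap_und_elim t).elim

theorem toDeg_bij [Finite V] [Finite E'] :
    Function.Bijective (toDeg : Dgn k und f a' f' → Deg k (fun y => (f y).1) a' f') :=
  Function.bijective_iff_has_inverse.2 ⟨ofDeg, of_to, fun _ => rfl⟩

/-- The choices of sides. -/
def side (S : Dgn k und f a' f') (ε : {e // S.M e ≠ none} → Bool) (e : E) : Option Bool :=
  if h : S.M e ≠ none then some (ε ⟨e, h⟩) else none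

theorem side_none (S : Dgn k und f a' f') (ε : {e // S.M e ≠ none} → Bool) (e : E) :
    side S ε e = none ↔ S.M e = none := by
  unfold side
  split_ifs with h
  · simp [h]
  · simpa using h

theorem side_bij (S : Dgn k und f a' f') : Function.Bijective
    (fun ε : {e // S.M e ≠ none} → Bool =>
      (⟨side S ε, side_none S ε⟩ : {ε : E → Option Bool // ∀ e, ε e = none ↔ S.M e = none})) := by
  constructor
  · intro ε ε' h
    funext ⟨e, he⟩
    have h1 : side S ε e = side S ε' e := congrFun (congrArg Subtype.val h) e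
    unfold side at h1
    rw [dif_pos he, dif_pos he] at h1
    exact Option.some_inj.1 h1
  · rintro ⟨ε, hε⟩
    refine ⟨fun e => (ε e.1).getD false, Subtype.ext ?_⟩
    funext e
    change side S (fun e => (ε e.1).getD false) e = ε e
    unfold side
    split_ifs with h
    · obtain ⟨b, hb⟩ : ∃ b, ε e = some b := by
        rw [← Option.isSome_iff_exists, Option.isSome_iff_ne_none]
        exact fun h' => h ((hε e).1 h')
      change some ((ε e).getD false) = ε e
      rw [hb]
      rfl
    · rw [(hε e).2 (by simpa using h)]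

theorem exps_eq [Finite V] [Finite E'] (hf : ∀ y, (f y).2 = 0) (S : Dgn k und f a' f')
    (ε : {e // S.M e ≠ none} → Bool) (w : Fin k) :
    S.exps ε w = (toDeg S).exps (side S ε) w := by
  unfold Dgn.exps Deg.exps
  have e4 : ∑ᶠ (t : Num.Kap (und : V → ℕ × Multiset ℕ)) (_ : S.p t = w),
      ({t.2.1 + 1 + (S.J t).elim 0 fun t' => t'.2.1} : Multiset ℕ) = 0 := by
    rw [finsum_of_isEmpty]
  rw [e4, add_zero]
  have e1 : ∀ y : E × Bool, ({(f (inl y)).2 +
      (S.M y.1).elim 0 (fun e' => (f' (inl (e'.1, xor e'.2 y.2))).2) +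
      if h : S.M y.1 ≠ none then (if ε ⟨y.1, h⟩ = y.2 then 1 else 0) else 0} : Multiset ℕ) =
      {(S.M y.1).elim 0 (fun e' => (f' (inl (e'.1, xor e'.2 y.2))).2) +
        if side S ε y.1 = some y.2 then 1 else 0} := by
    intro y
    rw [hf, zero_add]
    congr 2
    unfold side
    split_ifs with h1 h2 h3 h3 h4
    · rfl
    · exact absurd (congrArg some h2) h3
    · exact absurd (Option.some_inj.1 h3) h2
    · rfl
    · exact absurd h4 (by simp)
    · rfl
  refine congrArg₂ (· + ·) (congrArg₂ (· + ·) (congrArg₂ (· + ·) ?_ rfl) ?_) ?_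
  · exact finsum_congr fun y => finsum_congr fun _ => e1 y
  · refine finsum_congr fun x => finsum_congr fun _ => ?_
    rw [hf, zero_add]
  · refine finsum_congr fun t => finsum_congr_Prop ?_ fun _ => rfl
    exact propext ⟨fun h => h.1, fun h => ⟨h, fun t' => (Kap_und_elim t').elim⟩⟩

theorem wt_eq [Finite V] [Finite E'] (hf : ∀ y, (f y).2 = 0) (S : Dgn k und f a' f') :
    S.wt = (-1) ^ Nat.card {e // (toDeg S).M e ≠ none} *
      ∑ᶠ (ε : E → Option Bool) (_ : ∀ e, ε e = none ↔ (toDeg S).M e = none),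
        ∏ w, mu ((toDeg S).exps ε w) := by
  unfold Dgn.wt
  have h1 : Nat.card {t // S.J t ≠ none} = 0 := by
    have : IsEmpty {t // S.J t ≠ none} := ⟨fun t => (Kap_und_elim t.1).elim⟩
    exact Nat.card_of_isEmpty
  rw [h1, add_zero]
  congr 1
  rw [← finsum_subtype_eq_finsum_cond
    (p := fun ε : E → Option Bool => ∀ e, ε e = none ↔ (toDeg S).M e = none)]
  refine finsum_eq_of_bijective _ (side_bij S) fun ε => ?_
  refine Finset.prod_congr rfl fun w _ => ?_
  rw [S.g_zero, Pi.zero_apply, wk_mu _ _ rfl, exps_eq hf]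

/-- The pairing with an undecorated graph with rational vertices. -/
theorem pair_eq [Finite V] [Finite E'] (hf : ∀ y, (f y).2 = 0) :
    pair und f a' f' = pairZ (fun y => (f y).1) a' f' := by
  unfold pair pairZ
  refine Finset.sum_congr rfl fun k _ => ?_
  congr 1
  exact finsum_eq_of_bijective _ toDeg_bij fun S => wt_eq hf S

end Vale.Agent.P273.Z
end
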