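import Vale.Agent.P273.D14.H741.ZDefs
import Vale.Agent.P273.D14.H593.NumX

/-! The intersection numbers of genus `0`. -/

noncomputable section

namespace Vale.Agent.P273.Z

open Sum Vale.Agent.P273.Q Vale.Agent.P273.Num
open scoped Classical Nat

theorem mu_zero {m : Multiset ℕ} (h : m.sum + 3 ≠ m.card) : mu m = 0 := if_neg h

theorem mu_of {m : Multiset ℕ} (h : m.sum + 3 = m.card) :
    mu m = (m.sum ! : ℚ) / (m.map fun i => (i ! : ℚ)).prod := if_pos h

theorem prod_pos (m : Multiset ℕ) : (m.map fun i => (i ! : ℚ)).prod ≠ 0 := by
  rw [Ne, Multiset.prod_eq_zero_iff, Multiset.mem_map]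
  rintro ⟨i, -, h⟩
  exact (Nat.cast_ne_zero.2 (Nat.factorial_ne_zero i)) h

theorem card_le_sum {m : Multiset ℕ} (h : 0 ∉ m) : m.card ≤ m.sum := by
  induction m using Multiset.induction_on with
  | empty => simp
  | cons a m ih =>
    rw [Multiset.mem_cons, not_or] at h
    rw [Multiset.card_cons, Multiset.sum_cons]
    have := ih h.2
    have : a ≠ 0 := fun h' => h.1 h'.symm
    omega

theorem sum_eq_zero_of {m : Multiset ℕ} (h : m.sum = 0) : m = Multiset.replicate m.card 0 := by
  rw [Multiset.eq_replicate]
  exact ⟨rfl, fun b hb => by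
    have := Multiset.single_le_sum (fun _ _ => Nat.zero_le _) b hb
    omega⟩

theorem wk_mu (n : ℕ) : ∀ m : Multiset ℕ, m.card = n → wk 0 n m = mu m := by
  induction n with
  | zero =>
    intro m hm
    rw [wk, mu_zero (by omega)]
  | succ n ih =>
    intro m hm
    rw [wk]
    by_cases h3 : m = {0, 0, 0}
    · rw [if_pos ⟨rfl, h3⟩, h3, mu_of (by rfl)]
      simp
    rw [if_neg (fun h => h3 h.2), if_neg (fun h => absurd h.1 (by norm_num)),
      if_neg (fun h => absurd h.1 (by norm_num)), if_neg (fun h => absurd h.1 (by norm_num)),
      if_neg (fun h => absurd h.1 (by norm_num))]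
    by_cases h0 : 0 ∈ m
    · rw [if_pos h0]
      obtain ⟨m', rfl⟩ := Multiset.exists_cons_of_mem h0
      rw [Multiset.erase_cons_head]
      rw [Multiset.card_cons] at hm
      have hc : m'.card = n := by omega
      have e1 : ∀ d ∈ m', (if d = 0 then 0 else wk 0 n ((d - 1) ::ₘ m'.erase d)) =
          if d = 0 then 0 else mu ((d - 1) ::ₘ m'.erase d) := by
        intro d hd
        split_ifs with h
        · rfl
        · apply ih
          rw [Multiset.card_cons, Multiset.card_erase_add_one hd, hc]
      rw [Multiset.map_congr rfl e1]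
      have e2 : ∀ d ∈ m', d + (m'.erase d).sum = m'.sum := fun d hd => by
        rw [← Multiset.sum_cons, Multiset.cons_erase hd]
      have e3 : ∀ d ∈ m', (d ! : ℚ) * ((m'.erase d).map fun i => (i ! : ℚ)).prod =
          (m'.map fun i => (i ! : ℚ)).prod := fun d hd => by
        conv_rhs => rw [← Multiset.cons_erase hd, Multiset.map_cons, Multiset.prod_cons]
      by_cases hs : m'.sum + 3 = n + 1
      · have hs' : m'.sum ≠ 0 := by
          intro h
          apply h3
          have h4 := sum_eq_zero_of h
          have h5 : m'.card = 2 := by omega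
          rw [h4, h5]
          rfl
        rw [mu_of (by rw [Multiset.sum_cons, Multiset.card_cons]; omega), Multiset.sum_cons,
          Multiset.map_cons, Multiset.prod_cons]
        simp only [zero_add, Nat.factorial_zero, Nat.cast_one, one_mul]
        have e4 : ∀ d ∈ m', (if d = 0 then 0 else mu ((d - 1) ::ₘ m'.erase d)) =
            ((d : ℕ) : ℚ) * (((m'.sum - 1) ! : ℚ) / (m'.map fun i => (i ! : ℚ)).prod) := by
          intro d hd
          split_ifs with h
          · rw [h]; simp
          · have h6 := e2 d hd
            have h7 := Multiset.card_erase_add_one hd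
            rw [mu_of (by rw [Multiset.sum_cons, Multiset.card_cons]; omega), Multiset.sum_cons,
              Multiset.map_cons, Multiset.prod_cons, ← e3 d hd]
            rw [show d - 1 + (m'.erase d).sum = m'.sum - 1 by omega]
            obtain ⟨c, rfl⟩ : ∃ c, d = c + 1 := ⟨d - 1, by omega⟩
            rw [Nat.factorial_succ]
            have h8 := prod_pos (m'.erase (c + 1))
            have h9 : (c ! : ℚ) ≠ 0 := Nat.cast_ne_zero.2 (Nat.factorial_ne_zero c)
            have h10 : ((c : ℚ) + 1) ≠ 0 := by positivity
            push_cast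
            field_simp
        rw [Multiset.map_congr rfl e4, Multiset.sum_map_mul_right]
        have e5 : (m'.map fun d => ((d : ℕ) : ℚ)).sum = (m'.sum : ℚ) := by
          rw [← Multiset.map_id' m', Nat.cast_multiset_sum]
        rw [e5]
        obtain ⟨S, hS⟩ : ∃ S, m'.sum = S + 1 := ⟨m'.sum - 1, by omega⟩
        rw [hS, Nat.add_sub_cancel, Nat.factorial_succ]
        push_cast
        ring
      · rw [mu_zero (by rw [Multiset.sum_cons, Multiset.card_cons]; omega)]
        apply Multiset.sum_eq_zero
        intro x hx
        rw [Multiset.mem_map] at hx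
        obtain ⟨d, hd, rfl⟩ := hx
        split_ifs with h
        · rfl
        · have h6 := e2 d hd
          have h7 := Multiset.card_erase_add_one hd
          apply mu_zero
          rw [Multiset.sum_cons, Multiset.card_cons]
          omega
    · rw [if_neg h0]
      have h4 := card_le_sum h0
      rw [mu_zero (m := m) (by omega)]
      split_ifs with h1
      · rw [ih _ (by rw [Multiset.card_erase_of_mem h1, hm]; rfl), mu_zero, mul_zero]
        have h5 : 0 ∉ m.erase 1 := fun h => h0 (Multiset.mem_of_mem_erase h)
        have h6 := card_le_sum h5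
        omega
      · rfl

end Vale.Agent.P273.Z
end
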