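import Vale.Agent.P273.MathlibUsed

/-!
Decorated graphs, Pixton's relations (in dual form), the intersection number of an undecorated
stratum whose vertices are all rational with a decorated graph, and an element of the strata
algebra of genus 2 with 14 legs. Everything here is a definition.
-/

noncomputable section

namespace Vale.Agent.P273.Z

open Sum
open scoped Classical Nat

/-- A decorated graph with leg set `L` is given by vertices `V`, edges `E`, the genus and the kappa
decoration `a v` of each vertex, and the vertex and psi exponent `f y` of each half-edge `y` (an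
edge with a side, or a leg). Here are the linear functionals on the combinations of such graphs. -/
abbrev Fn (L : Type) : Type 1 :=
  ∀ V E : Type, (V → ℕ × Multiset ℕ) → ((E × Bool) ⊕ L → V × ℕ) → ℚ

variable {V E V' E' W D L N R T : Type}

/-- The valence of `v`. -/
def nv (f : (E × Bool) ⊕ L → V × ℕ) (v : V) : ℕ := Nat.card {y // (f y).1 = v}

/-- The graph is finite, connected, of genus `g` and degree `d`, and all vertices are stable. -/
def Stab (a : V → ℕ × Multiset ℕ) (f : (E × Bool) ⊕ L → V × ℕ) (g d : ℕ) : Prop :=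
  Finite V ∧ Finite E ∧ Nonempty V ∧
  (∀ s : Set V, (∀ e, (f (inl (e, true))).1 ∈ s ↔ (f (inl (e, false))).1 ∈ s) →
    s = ∅ ∨ s = Set.univ) ∧
  ∑ᶠ v, (a v).1 + Nat.card E + 1 = g + Nat.card V ∧ (∀ v, 2 < 2 * (a v).1 + nv f v) ∧
  Nat.card E + ∑ᶠ v, (a v).2.sum + ∑ᶠ y, (f y).2 = d

/-- Moreover the decorations have degree at most `3g(v)-3+n(v)` at each `v`. -/
def Valid (a : V → ℕ × Multiset ℕ) (f : (E × Bool) ⊕ L → V × ℕ) (g d : ℕ) : Prop :=
  Stab a f g d ∧ ∀ v,
    (a v).2.sum + ∑ᶠ (y) (_ : (f y).1 = v), (f y).2 + 3 ≤ 3 * (a v).1 + nv f v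

/-- `s` is a functional in degree `d` on the strata algebra of genus `g`. -/
def Tr (g d : ℕ) (s : Fn L) : Prop :=
  (∀ V E a f, ¬ Valid a f g d → s V E a f = 0) ∧
  (∀ V E V' E' a f f' (p : V → V') (q : E × Bool → E' × Bool), p.Bijective → q.Bijective →
    (∀ e, (q (e, true)).1 = (q (e, false)).1) →
    (∀ y, f' (y.map q id) = (f y).map p id) → s V E (a ∘ p) f = s V' E' a f') ∧
  ∀ V E a f v, s V E (Function.update a v ((a v).1, 0 ::ₘ (a v).2)) f =
    (2 * ((a v).1 : ℚ) - 2 + nv f v + (a v).2.card) * s V E a f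

/-- The coefficient of `ψ^m` in `ζ^a B_a(ζψ)`, for `a = 0, 1`. -/
def B (a : ℕ) (ζ : ℚ) (m : ℕ) : ℚ :=
  (ζ * (1 + 6 * m) / (1 - 6 * m)) ^ a * (-ζ) ^ m * (6 * m) ! / ((2 * m) ! * (3 * m) !)

/-- The coefficient of `x^p y^q` in the edge factor
`(ζ + ξ - B_0(ζx) ξB_1(ξy) - ζB_1(ζx) B_0(ξy)) / (x + y)`, where `z = (ζ, p)` and `w = (ξ, q)`. -/
def edgeF (z w : ℚ × ℕ) : ℚ :=
  ∑ j ∈ Finset.range (w.2 + 1), (-1) ^ (j + 1) *
    (B 0 z.1 (z.2 + 1 + j) * B 1 w.1 (w.2 - j) + B 1 z.1 (z.2 + 1 + j) * B 0 w.1 (w.2 - j))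

/-- The coefficient of `κ[μ]` in the vertex factor `κ(T - T B_0(ζT))`. -/
def kapF (μ : Multiset ℕ) (ζ : ℚ) : ℚ :=
  (μ.map fun c => 0 ^ c - B 0 ζ c).prod / ∏ c ∈ μ.toFinset, ((μ.count c) ! : ℚ)

/-- The coefficient of the decorated graph in `R^d_{g,A}`, times the order of its automorphism
group. -/
def wt (a : V → ℕ × Multiset ℕ) (f : (E × Bool) ⊕ L → V × ℕ) (g d : ℕ) (A : L → ℕ) : ℚ :=
  ∑ᶠ (_ : Stab a f g d) (ζ : V → Bool),
    let s := fun v => cond (ζ v) (1 : ℚ) (-1)
    let t := fun y => (f y).map s id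
    (1 / 2) ^ (Nat.card E + 1) * (∏ᶠ v, s v ^ ((a v).1 + 1) * kapF (a v).2 (s v)) *
      (∏ᶠ e, edgeF (t (inl (e, true))) (t (inl (e, false)))) *
      ∏ᶠ x, B (A x) (t (inr x)).1 (t (inr x)).2

/-- The value of the functional `F` on Pixton's relation `R^e_{γ,A}` with leg set `L`: the sum over
all decorated graphs with numbered vertices and numbered, oriented edges. -/
def rel (γ e : ℕ) (A : L → ℕ)
    (F : ∀ k m : ℕ, (Fin k → ℕ × Multiset ℕ) → ((Fin m × Bool) ⊕ L → Fin k × ℕ) → ℚ) : ℚ :=
  ∑ᶠ (k : ℕ) (m : ℕ) (a : Fin k → ℕ × Multiset ℕ) (f : (Fin m × Bool) ⊕ L → Fin k × ℕ),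
    wt a f γ e A / (k ! * m ! * 2 ^ m) * F k m a f

/-- The decorated graph `(a, f)` with leg set `L` is multiplied by `ψ_x ^ (b x)` for each leg `x`
and inserted at a vertex of a graph with leg set `N`, other vertices `R` and edges `T`; a half-edge
of `T` or leg in `N` is in the place of a leg `x : L`, `u y = inl x`, or at a vertex in `R` with some
psi exponent, `u y = inr _`. These are the half-edges of the resulting graph. -/
def insH (u : (T × Bool) ⊕ N → L ⊕ R × ℕ) (b : L → ℕ) (f : (E × Bool) ⊕ L → V × ℕ) :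
    ((E ⊕ T) × Bool) ⊕ N → (V ⊕ R) × ℕ :=
  let w := fun y => (u y).elim (fun x => (f (inr x)).map inl (· + b x)) (Prod.map inr id)
  Sum.elim (fun y => y.1.elim (fun i => (f (inl (i, y.2))).map inl id) fun t => w (inl (t, y.2)))
    fun i => w (inr i)

/-- The decorations of the vertices of the resulting graph. A leg `x` of the inserted graph that is
in no place is forgotten, with an additional factor `ψ_x`: it becomes a kappa class. -/
def insV (r : R → ℕ × Multiset ℕ) (u : (T × Bool) ⊕ N → L ⊕ R × ℕ) (b : L → ℕ)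
    (a : V → ℕ × Multiset ℕ) (f : (E × Bool) ⊕ L → V × ℕ) : V ⊕ R → ℕ × Multiset ℕ :=
  Sum.elim (fun v => ((a v).1, (a v).2 +
    ∑ᶠ (x) (_ : inl x ∉ Set.range u ∧ (f (inr x)).1 = v), {(f (inr x)).2 + b x})) r

/-- `s` is a functional in degree `d` on the strata algebra of genus `g` that satisfies all of
Pixton's relations. -/
def Pix (g d : ℕ) (s : Fn N) : Prop :=
  Tr g d s ∧ ∀ (R T L : Type) (r : R → ℕ × Multiset ℕ) (u : (T × Bool) ⊕ N → L ⊕ R × ℕ)
    (b A : L → ℕ) (γ e : ℕ), Finite R → Finite T → Finite L →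
    (∀ y z x, u y = inl x → u z = inl x → y = z) → (∀ x, A x ≤ 1) → γ + ∑ᶠ x, A x < 3 * e →
    rel γ e A (fun k m a f => s (Fin k ⊕ R) (Fin m ⊕ T) (insV r u b a f) (insH u b f)) = 0

/-- The integral of the product of the powers of the psi classes with the exponents in `m` over the
moduli space of stable rational curves with marked points. -/
def mu (m : Multiset ℕ) : ℚ :=
  if m.sum + 3 = m.card then (m.sum ! : ℚ) / (m.map fun i => (i ! : ℚ)).prod else 0

/-- The kappa classes in the decoration of a graph (`κ[μ]` at `v` is the pushforward of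
`∏ ψ^(c+1)`, `c ∈ μ`, under the map that forgets one additional marked point for each `c ∈ μ`). -/
abbrev Kap (a : V → ℕ × Multiset ℕ) : Type := (v : V) × ((a v).2 : Multiset ℕ)

/-- A graph with vertices `W`, all rational, is contracted to a graph with vertices `V` of genus `γ`
by contracting the edges in `D` (attached to `W` by `e`), and `c` is the map on vertices: `c` is
onto, its fibres are connected by the edges in `D`, and the genus of a vertex is the genus of the
subgraph contracted to it. -/
def Contr (e : D × Bool → W) (γ : V → ℕ) (c : W → V) : Prop :=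
  (∀ d, c (e (d, true)) = c (e (d, false))) ∧
  ∀ v, (∃ w, c w = v) ∧
    (∀ s : Set W, (∀ d, e (d, true) ∈ s ↔ e (d, false) ∈ s) →
      ∀ w w', c w = v → c w' = v → w ∈ s → w' ∈ s) ∧
    Nat.card {d // c (e (d, true)) = v} + 1 = γ v + Nat.card {w // c w = v}

/-- The common degenerations with `k` vertices of an undecorated graph with rational vertices (`h`
is the vertex of a half-edge or leg) and a decorated graph with the same leg set `L` that occur in
the product of the two classes: all vertices are rational, and the edges come from the edges `E` of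
the first graph and the edges `E'` of the second graph, where an edge of `E` may coincide with one
of `E'`. -/
structure Deg (k : ℕ) (h : (E × Bool) ⊕ L → V) (a' : V' → ℕ × Multiset ℕ)
    (f' : (E' × Bool) ⊕ L → V' × ℕ) where
  /-- The vertex of a half-edge that comes from the first graph or of a leg. -/
  h₁ : (E × Bool) ⊕ L → Fin k
  /-- The vertex of a half-edge that comes from the second graph. -/
  h₂ : E' × Bool → Fin k
  /-- The places of the kappa classes. -/
  p : Kap a' → Fin k
  /-- `M e = some (e', b)` if `e` and `e'` coincide; `b` is `true` if they have opposite sides. -/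
  M : E → Option (E' × Bool)
  /-- The map on vertices of the contraction to the first graph. -/
  c : Fin k → V
  /-- The map on vertices of the contraction to the second graph. -/
  c' : Fin k → V'
  M_inj : ∀ e₁ e₂ e' b₁ b₂, M e₁ = some (e', b₁) → M e₂ = some (e', b₂) → e₁ = e₂
  h_M : ∀ e e' b, M e = some (e', b) → ∀ s, h₁ (inl (e, s)) = h₂ (e', xor b s)
  c_h : ∀ y, c (h₁ y) = h y
  c'_h : ∀ x, c' (h₁ (inr x)) = (f' (inr x)).1
  c'_h₂ : ∀ y, c' (h₂ y) = (f' (inl y)).1
  c'_p : ∀ t, c' (p t) = t.1
  contr : Contr (fun y : {e' : E' // ∀ e b, M e ≠ some (e', b)} × Bool => h₂ (y.1.1, y.2))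
    (fun _ => 0) c
  contr' : Contr (fun y : {e : E // M e = none} × Bool => h₁ (inl (y.1.1, y.2)))
    (fun v => (a' v).1) c'

/-- The psi exponents at the vertex `w`: at the half-edges of the first graph, of the second graph
(if they are not among the former), at the legs and at the additional points of the kappa classes.
For each common edge `e` there is one more psi class, at its side `s` if `ε e = some s`. -/
def Deg.exps {k : ℕ} {h : (E × Bool) ⊕ L → V} {a' : V' → ℕ × Multiset ℕ}
    {f' : (E' × Bool) ⊕ L → V' × ℕ} (S : Deg k h a' f') (ε : E → Option Bool) (w : Fin k) :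
    Multiset ℕ :=
  ∑ᶠ (y : E × Bool) (_ : S.h₁ (inl y) = w),
    {(S.M y.1).elim 0 (fun e' => (f' (inl (e'.1, xor e'.2 y.2))).2) +
      if ε y.1 = some y.2 then 1 else 0} +
  ∑ᶠ (y : E' × Bool) (_ : S.h₂ y = w ∧ ∀ e b, S.M e ≠ some (y.1, b)), {(f' (inl y)).2} +
  ∑ᶠ (x : L) (_ : S.h₁ (inr x) = w), {(f' (inr x)).2} +
  ∑ᶠ (t : Kap a') (_ : S.p t = w), {t.2.1 + 1}

/-- The intersection number of the stratum of the undecorated graph `h`, all of whose vertices are
rational, with the class of a decorated graph, in complementary degrees: the sum over all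
isomorphism classes of common degenerations of the integrals of the decorations, and of
`-(ψ + ψ')` for each common edge. (A connected graph has at most one vertex more than it has
edges.) -/
def pairZ (h : (E × Bool) ⊕ L → V) (a' : V' → ℕ × Multiset ℕ)
    (f' : (E' × Bool) ⊕ L → V' × ℕ) : ℚ :=
  ∑ k ∈ Finset.range (Nat.card E + Nat.card E' + 2), (∑ᶠ S : Deg k h a' f',
    (-1) ^ Nat.card {e // S.M e ≠ none} *
      ∑ᶠ (ε : E → Option Bool) (_ : ∀ e, ε e = none ↔ S.M e = none), ∏ w, mu (S.exps ε w)) / k !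

/-- The vertex at the end of an edge of the theta graph: the first chain has the inner vertices
`t < p`, the second one `p ≤ t < q`, the third one `q ≤ t < 6`; all chains end at `6`. The edge
`inl r` is the first edge of the chain `r`, the edge `inr t` starts at `t`. -/
def hd (p q : ℕ) : Fin 3 ⊕ Fin 6 → Fin 7 :=
  Sum.elim ![if p = 0 then 6 else 0, if p = q then 6 else Fin.ofNat 7 p, Fin.ofNat 7 q]
    fun t => if t.1 + 1 = p ∨ t.1 + 1 = q then 6 else t.succ

/-- The theta graph: all chains start at the vertex `none`, which carries no legs; each other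
vertex `some t` carries the leg `(i, b)` with `σ b i = t`, for `b = true` and for `b = false`. -/
def th (p q : ℕ) (σ : Bool → Equiv.Perm (Fin 7)) :
    ((Fin 3 ⊕ Fin 6) × Bool) ⊕ (Fin 7 × Bool) → Option (Fin 7) :=
  Sum.elim (fun y => cond y.2 (y.1.elim (fun _ => none) fun t => some t.castSucc)
    (some (hd p q y.1))) fun x => some (σ x.2 x.1)

/-- The value of the functional `F` on the element `x`: the sum of the antisymmetrizations of five
theta graphs with the coefficients `1, -2, 1, 1, -1`. -/
def onX (F : (((Fin 3 ⊕ Fin 6) × Bool) ⊕ (Fin 7 × Bool) → Option (Fin 7)) → ℚ) : ℚ :=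
  ∑ σ : Bool → Equiv.Perm (Fin 7), (Equiv.Perm.sign (σ true) * Equiv.Perm.sign (σ false) : ℤ) *
    (F (th 2 4 σ) - 2 * F (th 1 3 σ) + F (th 0 3 σ) + F (th 1 2 σ) - F (th 0 2 σ))

end Vale.Agent.P273.Z
end
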